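import Mathlib
import Vale.Agent.Lib.P302.lead.Chunk
import Vale.Agent.Lib.P302.lead.I47.Layers

namespace Vale.Agent.Lib.P302.lead.I47

open Vale.Agent.Lib.P302.helper14 Vale.Agent.Lib.P302.lead

theorem ok_0_0 : stepOK 3000000 c_0_0 layer_1 = true := by decide +kernel

theorem ok_1_0 : stepOK 3000000 c_1_0 layer_2 = true := by decide +kernel

theorem ok_4_1 : stepOK 3000000 c_4_1 layer_5 = true := by decide +kernel

theorem ok_5_0 : stepOK 3000000 c_5_0 layer_6 = true := by decide +kernel

end Vale.Agent.Lib.P302.lead.I47
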