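import Mathlib
import Vale.Agent.Lib.P302.lead.Chunk
import Vale.Agent.Lib.P302.lead.I47.Layers

namespace Vale.Agent.Lib.P302.lead.I47

open Vale.Agent.Lib.P302.helper14 Vale.Agent.Lib.P302.lead

theorem ok_4_0 : stepOK 3000000 c_4_0 layer_5 = true := by decide +kernel

theorem ok_10_0 : stepOK 3000000 c_10_0 layer_11 = true := by decide +kernel

theorem ok_11_0 : stepOK 3000000 c_11_0 layer_12 = true := by decide +kernel

theorem ok_12_0 : stepOK 3000000 c_12_0 layer_13 = true := by decide +kernel

theorem ok_13_0 : stepOK 3000000 c_13_0 layer_14 = true := by decide +kernel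

end Vale.Agent.Lib.P302.lead.I47
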