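import Mathlib
import Vale.Agent.Lib.P302.lead.Chunk
import Vale.Agent.Lib.P302.lead.I47.Layers

namespace Vale.Agent.Lib.P302.lead.I47

open Vale.Agent.Lib.P302.helper14 Vale.Agent.Lib.P302.lead

theorem ok_2_0 : stepOK 3000000 c_2_0 layer_3 = true := by decide +kernel

theorem ok_3_0 : stepOK 3000000 c_3_0 layer_4 = true := by decide +kernel

theorem ok_8_0 : stepOK 3000000 c_8_0 layer_9 = true := by decide +kernel

end Vale.Agent.Lib.P302.lead.I47
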