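import Mathlib
import Vale.Agent.Lib.P302.lead.Chunk
import Vale.Agent.Lib.P302.lead.I47.Layers
import Vale.Agent.Lib.P302.lead.I47.Chk0
import Vale.Agent.Lib.P302.lead.I47.Chk1
import Vale.Agent.Lib.P302.lead.I47.Chk2
import Vale.Agent.Lib.P302.lead.I47.Chk3

namespace Vale.Agent.Lib.P302.lead.I47

open Vale.Agent.Lib.P302.helper14 Vale.Agent.Lib.P302.lead

theorem noTri_14 : ∀ s ∈ layer_14, ¬ TriPart 3000000 (s : Multiset ℕ) := noTri_nil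

theorem noTri_13 : ∀ s ∈ layer_13, ¬ TriPart 3000000 (s : Multiset ℕ) :=
  (stepOK_sound ok_13_0 noTri_14)

theorem noTri_12 : ∀ s ∈ layer_12, ¬ TriPart 3000000 (s : Multiset ℕ) :=
  (stepOK_sound ok_12_0 noTri_13)

theorem noTri_11 : ∀ s ∈ layer_11, ¬ TriPart 3000000 (s : Multiset ℕ) :=
  (stepOK_sound ok_11_0 noTri_12)

theorem noTri_10 : ∀ s ∈ layer_10, ¬ TriPart 3000000 (s : Multiset ℕ) :=
  (stepOK_sound ok_10_0 noTri_11)

theorem noTri_9 : ∀ s ∈ layer_9, ¬ TriPart 3000000 (s : Multiset ℕ) :=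
  (stepOK_sound ok_9_0 noTri_10)

theorem noTri_8 : ∀ s ∈ layer_8, ¬ TriPart 3000000 (s : Multiset ℕ) :=
  (stepOK_sound ok_8_0 noTri_9)

theorem noTri_7 : ∀ s ∈ layer_7, ¬ TriPart 3000000 (s : Multiset ℕ) :=
  (stepOK_sound ok_7_0 noTri_8)

theorem noTri_6 : ∀ s ∈ layer_6, ¬ TriPart 3000000 (s : Multiset ℕ) :=
  (stepOK_sound ok_6_0 noTri_7)

theorem noTri_5 : ∀ s ∈ layer_5, ¬ TriPart 3000000 (s : Multiset ℕ) :=
  (noTri_append (stepOK_sound ok_5_0 noTri_6)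
    (stepOK_sound ok_5_1 noTri_6))

theorem noTri_4 : ∀ s ∈ layer_4, ¬ TriPart 3000000 (s : Multiset ℕ) :=
  (noTri_append (stepOK_sound ok_4_0 noTri_5)
    (stepOK_sound ok_4_1 noTri_5))

theorem noTri_3 : ∀ s ∈ layer_3, ¬ TriPart 3000000 (s : Multiset ℕ) :=
  (stepOK_sound ok_3_0 noTri_4)

theorem noTri_2 : ∀ s ∈ layer_2, ¬ TriPart 3000000 (s : Multiset ℕ) :=
  (stepOK_sound ok_2_0 noTri_3)

theorem noTri_1 : ∀ s ∈ layer_1, ¬ TriPart 3000000 (s : Multiset ℕ) :=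
  (stepOK_sound ok_1_0 noTri_2)

theorem noTri_0 : ∀ s ∈ layer_0, ¬ TriPart 3000000 (s : Multiset ℕ) :=
  (stepOK_sound ok_0_0 noTri_1)

end Vale.Agent.Lib.P302.lead.I47
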